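import Vale.Agent.P108.Bdl.B1

/-!
# P108: the common dynamical frame

* `Fe k` : the lift of the standard map as a permutation of the plane, `Fz k i = (Fe k)^i`, `i : ℤ`;
* `orb k z i` : the (real) positions `x_i` of the orbit, `i : ℤ`;
* `Tz k i` : the `i`-th iterate on the unit square, `i : ℤ`, preserving `mQ`;
* `xy k j` : the coordinates `(x_{j-1}, x_j)` modulo `1`, preserving `mQ`.
-/

open MeasureTheory Filter Set Topology

namespace Vale.Agent.P108.Dyn

open Vale.Agent.P108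

/-- the inverse of the lift -/
noncomputable def Finv (k : ℝ) (z : ℝ × ℝ) : ℝ × ℝ :=
  (z.1 - z.2, z.2 - k * Real.sin (2 * Real.pi * (z.1 - z.2)))

lemma Finv_F (k : ℝ) (z : ℝ × ℝ) : Finv k (F k z) = z := by
  unfold Finv F
  ext
  · simp only; ring
  · simp only
    rw [show z.1 + z.2 + k * Real.sin (2 * Real.pi * z.1)
      - (z.2 + k * Real.sin (2 * Real.pi * z.1)) = z.1 by ring]
    ring

lemma F_Finv (k : ℝ) (z : ℝ × ℝ) : F k (Finv k z) = z := by
  unfold Finv F
  ext
  · simp only; ring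
  · simp only; ring

/-- the lift of the standard map as a permutation of the plane -/
noncomputable def Fe (k : ℝ) : Equiv.Perm (ℝ × ℝ) where
  toFun := F k
  invFun := Finv k
  left_inv := Finv_F k
  right_inv := F_Finv k

/-- integer powers of the lift -/
noncomputable def Fz (k : ℝ) (i : ℤ) (z : ℝ × ℝ) : ℝ × ℝ := (Fe k ^ i) z

@[simp] lemma Fz_zero (k : ℝ) (z : ℝ × ℝ) : Fz k 0 z = z := by simp [Fz]

lemma Fz_add (k : ℝ) (i j : ℤ) (z : ℝ × ℝ) : Fz k (i + j) z = Fz k i (Fz k j z) := by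
  unfold Fz; rw [zpow_add, Equiv.Perm.mul_apply]

lemma Fz_one (k : ℝ) (z : ℝ × ℝ) : Fz k 1 z = F k z := by
  unfold Fz; rw [zpow_one]; rfl

lemma Fz_neg_one (k : ℝ) (z : ℝ × ℝ) : Fz k (-1) z = Finv k z := by
  unfold Fz; rw [zpow_neg_one]; rfl

lemma Fz_succ (k : ℝ) (i : ℤ) (z : ℝ × ℝ) : Fz k (i + 1) z = F k (Fz k i z) := by
  rw [add_comm, Fz_add, Fz_one]

lemma Fz_pred (k : ℝ) (i : ℤ) (z : ℝ × ℝ) : Fz k (i - 1) z = Finv k (Fz k i z) := by
  rw [sub_eq_add_neg, add_comm, Fz_add, Fz_neg_one]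

lemma Fz_natCast (k : ℝ) (n : ℕ) (z : ℝ × ℝ) : Fz k n z = (F k)^[n] z := by
  induction n with
  | zero => simp
  | succ n ih => rw [Function.iterate_succ_apply', ← ih]; push_cast; exact Fz_succ k n z

lemma continuous_F (k : ℝ) : Continuous (F k) := by unfold F; fun_prop

lemma continuous_Finv (k : ℝ) : Continuous (Finv k) := by unfold Finv; fun_prop

lemma continuous_Fz (k : ℝ) (i : ℤ) : Continuous (Fz k i) := by
  induction i using Int.induction_on with
  | zero =>
    have : Fz k 0 = id := funext (Fz_zero k)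
    rw [this]; exact continuous_id
  | succ i ih =>
    rw [funext (Fz_succ k i)]; exact (continuous_F k).comp ih
  | pred i ih =>
    rw [funext (Fz_pred k (-i))]; exact (continuous_Finv k).comp ih

/-- positions of the orbit -/
noncomputable def orb (k : ℝ) (z : ℝ × ℝ) (i : ℤ) : ℝ := (Fz k i z).1

/-- the function of the second order recursion -/
noncomputable def phi (k x : ℝ) : ℝ := 2 * x + k * Real.sin (2 * Real.pi * x)

lemma continuous_orb (k : ℝ) (i : ℤ) : Continuous (fun z => orb k z i) :=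
  continuous_fst.comp (continuous_Fz k i)

lemma measurable_orb (k : ℝ) (i : ℤ) : Measurable (fun z => orb k z i) :=
  (continuous_orb k i).measurable

lemma orb_natCast (k : ℝ) (z : ℝ × ℝ) (n : ℕ) : orb k z n = ((F k)^[n] z).1 := by
  unfold orb; rw [Fz_natCast]

lemma orb_zero (k : ℝ) (z : ℝ × ℝ) : orb k z 0 = z.1 := by unfold orb; rw [Fz_zero]

lemma orb_Fz (k : ℝ) (z : ℝ × ℝ) (i j : ℤ) : orb k (Fz k j z) i = orb k z (i + j) := by
  unfold orb; rw [Fz_add]

/-- the momentum is the difference of consecutive positions -/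
lemma Fz_snd (k : ℝ) (z : ℝ × ℝ) (i : ℤ) : (Fz k i z).2 = orb k z i - orb k z (i - 1) := by
  unfold orb
  rw [Fz_pred]
  simp [Finv]

/-- second order recursion -/
lemma orb_rec (k : ℝ) (z : ℝ × ℝ) (i : ℤ) :
    orb k z (i + 1) + orb k z (i - 1) = phi k (orb k z i) := by
  have h1 : orb k z (i + 1) = (F k (Fz k i z)).1 := by unfold orb; rw [Fz_succ]
  have h2 := Fz_snd k z i
  rw [h1]
  unfold F phi
  simp only
  rw [h2]
  unfold orb
  ring

lemma orb_succ (k : ℝ) (z : ℝ × ℝ) (i : ℤ) :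
    orb k z (i + 1) = phi k (orb k z i) - orb k z (i - 1) := by
  linarith [orb_rec k z i]

lemma hasDerivAt_phi (k x : ℝ) : HasDerivAt (phi k) (FT.a k x) x := by
  have h5 : HasDerivAt (fun x : ℝ => 2 * Real.pi * x) (2 * Real.pi) x := by
    simpa using (hasDerivAt_id x).const_mul (2 * Real.pi)
  have h6 : HasDerivAt (fun x : ℝ => 2 * x) 2 x := by
    simpa using (hasDerivAt_id x).const_mul (2 : ℝ)
  exact (h6.add ((h5.sin).const_mul k)).congr_deriv (by unfold FT.a; ring)

/-- an orbit is determined by two consecutive positions; every pair occurs -/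
lemma orb_unique {k : ℝ} {x : ℤ → ℝ} (hx : ∀ i, x (i + 1) + x (i - 1) = phi k (x i)) :
    ∀ i, x i = orb k (x 0, x 0 - x (-1)) i := by
  set z : ℝ × ℝ := (x 0, x 0 - x (-1)) with hz
  have h0 : x 0 = orb k z 0 := by rw [orb_zero]
  have hm1 : x (-1) = orb k z (-1) := by
    unfold orb; rw [Fz_neg_one]; simp [Finv, hz]
  have key : ∀ i : ℤ, x i = orb k z i ∧ x (i - 1) = orb k z (i - 1) := by
    intro i
    induction i using Int.induction_on with
    | zero => exact ⟨h0, by simpa using hm1⟩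
    | succ i ih =>
      refine ⟨?_, by simpa using ih.1⟩
      have h1 := hx i
      rw [orb_succ]
      rw [← ih.1, ← ih.2]
      linarith
    | pred i ih =>
      refine ⟨ih.2, ?_⟩
      have h1 := hx (-(i : ℤ) - 1)
      have h2 := orb_rec k z (-(i : ℤ) - 1)
      rw [sub_add_cancel] at h1 h2
      rw [← ih.1, ← ih.2] at h2
      linarith
  exact fun i => (key i).1

/-! ### integer translations -/

lemma Finv_add_ip (k : ℝ) (z : ℝ × ℝ) (a b : ℤ) :
    Finv k (z + ip a b) = Finv k z + ip (a - b) b := by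
  apply (Fe k).injective
  change F k _ = F k _
  rw [F_Finv, F_add_ip, F_Finv, sub_add_cancel]

lemma Fz_add_ip (k : ℝ) (i : ℤ) (z : ℝ × ℝ) (a b : ℤ) :
    Fz k i (z + ip a b) = Fz k i z + ip (a + i * b) b := by
  induction i using Int.induction_on with
  | zero => simp
  | succ i ih =>
    rw [Fz_succ, ih, F_add_ip, Fz_succ]
    congr 2; ring
  | pred i ih =>
    rw [Fz_pred, ih, Finv_add_ip, Fz_pred]
    congr 2; ring

lemma orb_add_ip (k : ℝ) (z : ℝ × ℝ) (a b i : ℤ) :
    orb k (z + ip a b) i = orb k z i + (a + i * b) := by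
  unfold orb
  rw [Fz_add_ip]
  unfold ip
  simp

/-! ### the iterates on the square -/

/-- reduction modulo `1` -/
noncomputable def fr (z : ℝ × ℝ) : ℝ × ℝ := (Int.fract z.1, Int.fract z.2)

lemma fr_eq (z : ℝ × ℝ) : fr z = z + ip (-⌊z.1⌋) (-⌊z.2⌋) := by
  have h1 := Int.self_sub_floor z.1
  have h2 := Int.self_sub_floor z.2
  unfold fr ip
  ext
  · simp; linarith
  · simp; linarith

lemma eq_fr (z : ℝ × ℝ) : z = fr z + ip ⌊z.1⌋ ⌊z.2⌋ := by
  unfold fr ip
  ext
  · simp
  · simp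

lemma fr_mem (z : ℝ × ℝ) : fr z ∈ Q :=
  ⟨⟨Int.fract_nonneg _, Int.fract_lt_one _⟩, ⟨Int.fract_nonneg _, Int.fract_lt_one _⟩⟩

lemma fr_add_ip (z : ℝ × ℝ) (a b : ℤ) : fr (z + ip a b) = fr z := by
  unfold fr ip
  simp

lemma fr_of_mem {z : ℝ × ℝ} (hz : z ∈ Q) : fr z = z := by
  obtain ⟨h1, h2⟩ := hz
  unfold fr
  rw [Int.fract_eq_self.2 h1, Int.fract_eq_self.2 h2]

lemma measurable_fr : Measurable fr :=
  (measurable_fract.comp measurable_fst).prodMk (measurable_fract.comp measurable_snd)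

lemma mp_fr : MeasurePreserving fr mQ mQ := by
  refine ⟨measurable_fr, ?_⟩
  have : fr =ᵐ[mQ] id := by
    unfold mQ
    refine (ae_restrict_iff' (measurableSet_Ico.prod measurableSet_Ico)).2
      (Eventually.of_forall fun z hz => fr_of_mem hz)
  rw [Measure.map_congr this, Measure.map_id]

/-- the iterates of the standard map on the square, for all integers -/
noncomputable def Tz (k : ℝ) (i : ℤ) (z : ℝ × ℝ) : ℝ × ℝ := fr (Fz k i z)

lemma Tz_eq (k : ℝ) (i : ℤ) (z : ℝ × ℝ) :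
    Tz k i z = Fz k i z + ip (-⌊(Fz k i z).1⌋) (-⌊(Fz k i z).2⌋) := fr_eq _

lemma measurable_Tz (k : ℝ) (i : ℤ) : Measurable (Tz k i) :=
  measurable_fr.comp (continuous_Fz k i).measurable

lemma Tz_zero (k : ℝ) : Tz k 0 = fr := by
  ext1 z; unfold Tz; rw [Fz_zero]

lemma Tz_add (k : ℝ) (i j : ℤ) (z : ℝ × ℝ) : Tz k (i + j) z = Tz k i (Tz k j z) := by
  conv_rhs => rw [Tz_eq k j z]
  unfold Tz
  rw [Fz_add_ip, fr_add_ip, Fz_add]

lemma Tz_one (k : ℝ) : Tz k 1 = T k := by
  ext1 z; unfold Tz; rw [Fz_one]; rfl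

lemma mp_Tz_one (k : ℝ) : MeasurePreserving (Tz k 1) mQ mQ := by
  rw [Tz_one]; exact mp_T k

lemma mp_Tz_neg_one (k : ℝ) : MeasurePreserving (Tz k (-1)) mQ mQ := by
  refine ⟨measurable_Tz k _, ?_⟩
  conv_lhs => rw [← (mp_Tz_one k).map_eq]
  rw [Measure.map_map (measurable_Tz k _) (measurable_Tz k _)]
  have : Tz k (-1) ∘ Tz k 1 = fr := by
    ext1 z
    simp only [Function.comp]
    rw [← Tz_add, neg_add_cancel, Tz_zero]
  rw [this, mp_fr.map_eq]

/-- the iterates preserve area -/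
theorem mp_Tz (k : ℝ) (i : ℤ) : MeasurePreserving (Tz k i) mQ mQ := by
  induction i using Int.induction_on with
  | zero => rw [Tz_zero]; exact mp_fr
  | succ i ih =>
    have : Tz k (i + 1) = Tz k 1 ∘ Tz k i := by
      ext1 z; rw [add_comm, Tz_add]; rfl
    rw [this]; exact (mp_Tz_one k).comp ih
  | pred i ih =>
    have : Tz k (-i - 1) = Tz k (-1) ∘ Tz k (-i) := by
      ext1 z; rw [sub_eq_add_neg, add_comm, Tz_add]; rfl
    rw [this]; exact (mp_Tz_neg_one k).comp ih

lemma Tz_natCast (k : ℝ) (n : ℕ) {z : ℝ × ℝ} (hz : z ∈ Q) : Tz k n z = (T k)^[n] z := by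
  induction n with
  | zero => simp only [Nat.cast_zero, Tz_zero, Function.iterate_zero, id]; exact fr_of_mem hz
  | succ n ih =>
    rw [Function.iterate_succ_apply', ← ih, ← Tz_one, ← Tz_add, add_comm]
    push_cast; rfl

/-- **exact equivariance**: the orbit of `Tz k j z` is the shifted orbit of `z` up to integers -/
theorem orb_Tz (k : ℝ) (j : ℤ) (z : ℝ × ℝ) :
    ∃ m n : ℤ, ∀ i : ℤ, orb k (Tz k j z) i = orb k z (i + j) + (m + i * n) := by
  refine ⟨-⌊(Fz k j z).1⌋, -⌊(Fz k j z).2⌋, fun i => ?_⟩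
  rw [Tz_eq, orb_add_ip, orb_Fz]

/-- every functional of the positions modulo `1` is equivariant -/
theorem equivariant_of_periodic {α : Type*} (k : ℝ) (S : (ℤ → ℝ) → α)
    (hS : ∀ x y : ℤ → ℝ, (∃ m n : ℤ, ∀ i, y i = x i + (m + i * n)) → S y = S x)
    (j : ℤ) (z : ℝ × ℝ) :
    S (fun i => orb k (Tz k j z) i) = S (fun i => orb k z (i + j)) := by
  obtain ⟨m, n, h⟩ := orb_Tz k j z
  exact hS _ _ ⟨m, n, h⟩

lemma a_orb_Tz (k : ℝ) (j : ℤ) (z : ℝ × ℝ) (i : ℤ) :
    FT.a k (orb k (Tz k j z) i) = FT.a k (orb k z (i + j)) := by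
  obtain ⟨m, n, h⟩ := orb_Tz k j z
  rw [h i]
  have : (m : ℝ) + i * n = ((m + i * n : ℤ) : ℝ) := by push_cast; ring
  rw [this, FT.a_add_int]

/-! ### position coordinates -/

/-- the coordinates `(x_{j-1}, x_j)` modulo `1` -/
noncomputable def xy (k : ℝ) (j : ℤ) (z : ℝ × ℝ) : ℝ × ℝ := fr (orb k z (j - 1), orb k z j)

lemma mp_shear : MeasurePreserving
    (fun z : ℝ × ℝ => ((Int.fract (z.1 - z.2), Int.fract z.1) : ℝ × ℝ)) mQ mQ := by
  have h1 := mp_Tz 0 (-1)
  have h2 : MeasurePreserving (fun p : ℝ × ℝ => (p.1, Int.fract (p.2 + p.1))) mQ mQ := by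
    rw [mQ_eq]
    refine MeasurePreserving.skew_product (f := id) (g := fun x y => Int.fract (y + x))
      (MeasurePreserving.id _) ?_ (Eventually.of_forall fun x => (mp_fract_add _).map_eq)
    unfold Function.uncurry
    fun_prop
  have h3 := h2.comp h1
  have heq : (fun p : ℝ × ℝ => (p.1, Int.fract (p.2 + p.1))) ∘ Tz 0 (-1)
      = fun z : ℝ × ℝ => ((Int.fract (z.1 - z.2), Int.fract z.1) : ℝ × ℝ) := by
    ext1 z
    simp only [Function.comp, Tz, Fz_neg_one, Finv, fr]
    ext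
    · simp only
    · simp only
      rw [fract_fract_add, add_comm, fract_fract_add]
      congr 1; ring
  rwa [heq] at h3

/-- the coordinates `(x_{j-1}, x_j)` modulo `1` preserve area -/
theorem mp_xy (k : ℝ) (j : ℤ) : MeasurePreserving (xy k j) mQ mQ := by
  have h := mp_shear.comp (mp_Tz k j)
  have heq : (fun z : ℝ × ℝ => ((Int.fract (z.1 - z.2), Int.fract z.1) : ℝ × ℝ)) ∘ Tz k j
      = xy k j := by
    ext1 z
    simp only [Function.comp]
    have h1 : (Tz k j z).1 = Int.fract (orb k z j) := rfl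
    have h2 : (Tz k j z).2 = Int.fract ((Fz k j z).2) := rfl
    have h3 := Fz_snd k z j
    unfold xy fr
    ext
    · simp only
      rw [h1, h2, h3]
      rw [Int.fract_eq_fract]
      refine ⟨-⌊orb k z j⌋ + ⌊orb k z j - orb k z (j - 1)⌋, ?_⟩
      unfold Int.fract
      push_cast
      ring
    · simp only
      rw [h1, Int.fract_fract]
  rwa [heq] at h

end Vale.Agent.P108.Dyn
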