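import Vale.Agent.P108.Dyn.Basic
import Mathlib.MeasureTheory.Measure.Haar.Unique

/-!
# P108: time reversal

`Rv k z = (x₀, x₀ - x₁)`: the orbit of `Rv k z` is the reversed orbit of `z`; `Rq k = fr ∘ Rv k`
preserves `mQ`.
-/

open MeasureTheory Filter Set Topology

namespace Vale.Agent.P108.Dyn

open Vale.Agent.P108

/-- the reversor -/
noncomputable def Rv (k : ℝ) (z : ℝ × ℝ) : ℝ × ℝ := (z.1, z.1 - orb k z 1)

/-- the reversed sequence is an orbit -/
theorem orb_Rv (k : ℝ) (z : ℝ × ℝ) (i : ℤ) : orb k (Rv k z) i = orb k z (-i) := by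
  have hx : ∀ i : ℤ, (fun i => orb k z (-i)) (i + 1) + (fun i => orb k z (-i)) (i - 1)
      = phi k ((fun i => orb k z (-i)) i) := by
    intro i
    have h := orb_rec k z (-i)
    simp only
    rw [show -(i + 1) = -i - 1 by ring, show -(i - 1) = -i + 1 by ring]
    linarith
  have h := orb_unique (x := fun i => orb k z (-i)) hx i
  simp only [neg_zero, neg_neg, orb_zero] at h
  exact h.symm

lemma Rv_eq (k : ℝ) (z : ℝ × ℝ) : Rv k z = (z.1, -z.2 - k * Real.sin (2 * Real.pi * z.1)) := by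
  unfold Rv orb
  rw [Fz_one]
  unfold F
  ext
  · simp only
  · simp only; ring

lemma Rv_Rv (k : ℝ) (z : ℝ × ℝ) : Rv k (Rv k z) = z := by
  rw [Rv_eq, Rv_eq]
  ext
  · simp only
  · simp only; ring

lemma Rv_Fz (k : ℝ) (j : ℤ) (z : ℝ × ℝ) : Rv k (Fz k j z) = Fz k (-j) (Rv k z) := by
  have h1 : ∀ i, orb k (Rv k (Fz k j z)) i = orb k (Fz k (-j) (Rv k z)) i := by
    intro i
    rw [orb_Rv, orb_Fz, orb_Fz, orb_Rv]
    congr 1; ring
  have h2 : ∀ w : ℝ × ℝ, w = (orb k w 0, orb k w 0 - orb k w (-1)) := by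
    intro w
    have h3 := Fz_snd k w 0
    rw [Fz_zero] at h3
    have h4 : (0 : ℤ) - 1 = -1 := by ring
    rw [h4] at h3
    rw [← h3, orb_zero]
  rw [h2 (Rv k (Fz k j z)), h2 (Fz k (-j) (Rv k z)), h1, h1]

lemma continuous_Rv (k : ℝ) : Continuous (Rv k) :=
  continuous_fst.prodMk (continuous_fst.sub (continuous_orb k 1))

lemma Rv_add_ip (k : ℝ) (z : ℝ × ℝ) (a b : ℤ) : Rv k (z + ip a b) = Rv k z + ip a (-b) := by
  unfold Rv
  rw [orb_add_ip]
  unfold ip
  ext
  · simp
  · simp; ring

/-- the reversor on the square -/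
noncomputable def Rq (k : ℝ) (z : ℝ × ℝ) : ℝ × ℝ := fr (Rv k z)

lemma Rq_eq (k : ℝ) (z : ℝ × ℝ) :
    Rq k z = Rv k z + ip (-⌊(Rv k z).1⌋) (-⌊(Rv k z).2⌋) := fr_eq _

/-- the orbit of `Rq k z` is the reversed orbit of `z` up to integers -/
theorem orb_Rq (k : ℝ) (z : ℝ × ℝ) :
    ∃ m n : ℤ, ∀ i : ℤ, orb k (Rq k z) i = orb k z (-i) + (m + i * n) := by
  refine ⟨-⌊(Rv k z).1⌋, -⌊(Rv k z).2⌋, fun i => ?_⟩
  rw [Rq_eq, orb_add_ip, orb_Rv]

lemma a_orb_Rq (k : ℝ) (z : ℝ × ℝ) (i : ℤ) :
    FT.a k (orb k (Rq k z) i) = FT.a k (orb k z (-i)) := by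
  obtain ⟨m, n, h⟩ := orb_Rq k z
  rw [h i]
  have : (m : ℝ) + i * n = ((m + i * n : ℤ) : ℝ) := by push_cast; ring
  rw [this, FT.a_add_int]

lemma measurable_Rq (k : ℝ) : Measurable (Rq k) :=
  measurable_fr.comp (continuous_Rv k).measurable

lemma mp_fract_sub (c : ℝ) : MeasurePreserving (fun y : ℝ => Int.fract (c - y))
    (volume.restrict (Ico (0 : ℝ) 1)) (volume.restrict (Ico (0 : ℝ) 1)) := by
  refine ⟨by fun_prop, ?_⟩
  -- compare with the preserved measure of the reflection of the circle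
  have h1 : MeasurePreserving (fun x : ℝ => c - x) volume volume := by
    have := (measurePreserving_add_left (volume : Measure ℝ) c).comp
      (Measure.measurePreserving_neg (volume : Measure ℝ))
    have heq : ((fun x => c + x) ∘ Neg.neg : ℝ → ℝ) = fun x : ℝ => c - x := by
      ext x; simp [sub_eq_add_neg]
    rwa [heq] at this
  refine Measure.ext fun s hs => ?_
  rw [Measure.map_apply (by fun_prop) hs, Measure.restrict_apply hs,
    Measure.restrict_apply ((by fun_prop : Measurable fun y : ℝ => Int.fract (c - y)) hs)]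
  -- the set of `y` in `[0,1)` with `fract (c - y) ∈ s`
  set m : ℤ := ⌊c⌋ with hm
  set f : ℝ := Int.fract c with hf
  have hcf : c = m + f := by rw [hm, hf]; exact (Int.floor_add_fract c).symm
  have hf0 : 0 ≤ f := Int.fract_nonneg c
  have hf1 : f < 1 := Int.fract_lt_one c
  have key : ∀ y, y ∈ Ico (0 : ℝ) 1 → Int.fract (c - y) = if y ≤ f then f - y else f - y + 1 := by
    intro y hy
    split_ifs with h
    · rw [hcf, add_sub_assoc, Int.fract_intCast_add, Int.fract_eq_self]
      exact ⟨by linarith, by linarith [hy.1]⟩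
    · push Not at h
      rw [Int.fract_eq_iff]
      refine ⟨by linarith [hy.2], by linarith, m - 1, ?_⟩
      rw [hcf]; push_cast; ring
  have e1 : (fun y : ℝ => Int.fract (c - y)) ⁻¹' s ∩ Ico 0 1
      = ((fun y : ℝ => f - y) ⁻¹' (s ∩ Icc 0 f)) ∪ ((fun y : ℝ => f + 1 - y) ⁻¹' (s ∩ Ioo f 1)) := by
    ext y
    simp only [mem_inter_iff, mem_preimage, mem_union]
    constructor
    · rintro ⟨h1, h2⟩
      rw [key y h2] at h1
      split_ifs at h1 with h
      · exact Or.inl ⟨h1, by linarith, by linarith [h2.1]⟩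
      · push Not at h
        refine Or.inr ⟨by convert h1 using 1; ring, by linarith [h2.2], by linarith⟩
    · rintro (⟨h1, h2, h3⟩ | ⟨h1, h2, h3⟩)
      · have hy : y ∈ Ico (0 : ℝ) 1 := ⟨by linarith, by linarith⟩
        refine ⟨?_, hy⟩
        rw [key y hy, if_pos (by linarith)]
        exact h1
      · have hy : y ∈ Ico (0 : ℝ) 1 := ⟨by linarith, by linarith⟩
        refine ⟨?_, hy⟩
        rw [key y hy, if_neg (by linarith)]
        convert h1 using 1; ring
  have h2 : MeasurePreserving (fun x : ℝ => f - x) volume volume := by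
    have := (measurePreserving_add_left (volume : Measure ℝ) f).comp
      (Measure.measurePreserving_neg (volume : Measure ℝ))
    have heq : ((fun x => f + x) ∘ Neg.neg : ℝ → ℝ) = fun x : ℝ => f - x := by
      ext x; simp [sub_eq_add_neg]
    rwa [heq] at this
  have h3 : MeasurePreserving (fun x : ℝ => f + 1 - x) volume volume := by
    have := (measurePreserving_add_left (volume : Measure ℝ) (f + 1)).comp
      (Measure.measurePreserving_neg (volume : Measure ℝ))
    have heq : ((fun x => f + 1 + x) ∘ Neg.neg : ℝ → ℝ) = fun x : ℝ => f + 1 - x := by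
      ext x; simp [sub_eq_add_neg]
    rwa [heq] at this
  rw [e1, measure_union, h2.measure_preimage (hs.inter measurableSet_Icc).nullMeasurableSet,
    h3.measure_preimage (hs.inter measurableSet_Ioo).nullMeasurableSet, ← measure_union]
  · -- both sides agree up to the point 0 or f
    rw [← inter_union_distrib_left]
    have e2 : Icc (0 : ℝ) f ∪ Ioo f 1 = Ico 0 1 := by
      ext y
      simp only [mem_union, mem_Icc, mem_Ioo, mem_Ico]
      constructor
      · rintro (⟨h1, h2⟩ | ⟨h1, h2⟩)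
        · exact ⟨h1, by linarith⟩
        · exact ⟨by linarith, h2⟩
      · rintro ⟨h1, h2⟩
        rcases le_or_gt y f with h | h
        · exact Or.inl ⟨h1, h⟩
        · exact Or.inr ⟨h, h2⟩
    rw [e2]
  · rw [Set.disjoint_left]
    rintro y ⟨_, _, h2⟩ ⟨_, h3, _⟩
    linarith
  · exact hs.inter measurableSet_Ioo
  · rw [Set.disjoint_left]
    rintro y ⟨_, h1, h2⟩ ⟨_, h3, h4⟩
    simp only at h1 h2 h3 h4
    linarith
  · exact (h3.measurable (hs.inter measurableSet_Ioo))

/-- the reversor preserves area -/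
theorem mp_Rq (k : ℝ) : MeasurePreserving (Rq k) mQ mQ := by
  have h1 : MeasurePreserving (fun p : ℝ × ℝ =>
      (p.1, Int.fract (-(k * Real.sin (2 * Real.pi * p.1)) - p.2))) mQ mQ := by
    rw [mQ_eq]
    refine MeasurePreserving.skew_product (f := id)
      (g := fun x y => Int.fract (-(k * Real.sin (2 * Real.pi * x)) - y))
      (MeasurePreserving.id _) ?_ (Eventually.of_forall fun x => (mp_fract_sub _).map_eq)
    unfold Function.uncurry
    fun_prop
  have h2 := mp_fr.comp h1
  have heq : fr ∘ (fun p : ℝ × ℝ => (p.1, Int.fract (-(k * Real.sin (2 * Real.pi * p.1)) - p.2)))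
      = Rq k := by
    ext1 z
    simp only [Function.comp, Rq, Rv_eq, fr]
    ext
    · simp only
    · simp only
      rw [Int.fract_fract]
      congr 1; ring
  rwa [heq] at h2

end Vale.Agent.P108.Dyn
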